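import Vale.Agent.Lib.P309.Floor
import Vale.Agent.Lib.P309.Upper

/-!
P309, Q1: the order of the least horizon of learners with `M = O(d ^ 2)` bits of memory.
-/

open MeasureTheory ProbabilityTheory Vale.Agent.P309

namespace Vale.Agent.Results.P309.HorizonOrder

/-- Some learner with at most `2 ^ M` states and horizon `T`, whose output is a randomised
function of its final state, succeeds at accuracy `ε` with probability at least `2 / 3`. -/
def Achievable (d M T : ℕ) (ε : ℝ) : Prop :=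
  ∃ (Q : Type) (_ : Fintype Q) (_ : MeasurableSpace Q) (_ : MeasurableSingletonClass Q)
    (L : Learner d Q), Fintype.card Q ≤ 2 ^ M ∧ (∀ t, L.out t = L.out 0) ∧
      ENNReal.ofReal (2 / 3) ≤ L.successProb T ε

/-- The least horizon, infinite if no learner succeeds. -/
noncomputable def leastHorizon (d M : ℕ) (ε : ℝ) : ENNReal :=
  ⨅ (T : ℕ) (_ : Achievable d M T ε), (T : ENNReal)

theorem upper (d M : ℕ) (hd : 1 ≤ d) (ε : ℝ) (hε : 0 < ε) (hε1 : ε ≤ Real.exp (-1))
    (hM : d * (Real.logb 2 (1 / ε) + 2 * Real.logb 2 d + 8) ≤ (M : ℝ)) :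
    leastHorizon d M ε ≤ ENNReal.ofReal (11 * (d * Real.log (1 / ε))) := by
  have hdpos : (0 : ℝ) < d := by exact_mod_cast hd
  have hdr : (1 : ℝ) ≤ d := by exact_mod_cast hd
  have hL : 1 ≤ Real.log (1 / ε) := by
    rw [one_div, Real.log_inv]
    have h1 := Real.log_le_log hε hε1
    rw [Real.log_exp] at h1
    linarith
  have hε1' : ε ≤ 1 := hε1.trans (by
    have := Real.exp_le_exp.mpr (by norm_num : (-1 : ℝ) ≤ 0)
    rwa [Real.exp_zero] at this)
  obtain ⟨b, hb⟩ : ∃ b, b = M / d := ⟨_, rfl⟩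
  obtain ⟨T, hT⟩ : ∃ T, T = ⌈2 * (d : ℝ) * Real.log (48 / ε)⌉₊ := ⟨_, rfl⟩
  have hbd : b * d ≤ M := by rw [hb]; exact Nat.div_mul_le_self M d
  have hb1 : Real.logb 2 (1 / ε) + 2 * Real.logb 2 d + 7 ≤ b := by
    have h1 : (M : ℝ) < (b + 1) * d := by
      have : M < (M / d + 1) * d := Nat.lt_mul_of_div_lt (Nat.lt_succ_self _) (by omega)
      rw [← hb] at this
      exact_mod_cast this
    have h2 : d * (Real.logb 2 (1 / ε) + 2 * Real.logb 2 d + 8) < d * ((b : ℝ) + 1) := by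
      linarith
    have h3 := lt_of_mul_lt_mul_left h2 hdpos.le
    linarith
  have hb2 : 96 * (d : ℝ) ^ 2 / ε ≤ 2 ^ b := by
    have h1 : (96 : ℝ) * (d : ℝ) ^ 2 / ε ≤ 2 ^ (7 : ℕ) * (d : ℝ) ^ 2 / ε := by
      gcongr
      norm_num
    refine h1.trans ?_
    have h2 : (2 : ℝ) ^ (7 : ℕ) * (d : ℝ) ^ 2 / ε
        = (2 : ℝ) ^ (Real.logb 2 (1 / ε) + 2 * Real.logb 2 d + 7) := by
      rw [Real.rpow_add (by norm_num), Real.rpow_add (by norm_num),
        Real.rpow_logb (by norm_num) (by norm_num) (by positivity), mul_comm 2 (Real.logb 2 d),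
        Real.rpow_mul (by norm_num), Real.rpow_logb (by norm_num) (by norm_num) hdpos]
      norm_num
      ring
    rw [h2, ← Real.rpow_natCast 2 b]
    exact Real.rpow_le_rpow_of_exponent_le (by norm_num) hb1
  have hμ := isProb_unifSphere hd
  obtain ⟨e⟩ : Nonempty (Sph d) := by
    by_contra hcon
    rw [not_nonempty_iff] at hcon
    have := hμ.measure_univ
    rw [Measure.eq_zero_of_isEmpty (unifSphere d)] at this
    simp at this
  have hach : Achievable d M T ε := by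
    refine ⟨Fin d → Fin (2 ^ b), inferInstance, inferInstance, inferInstance, kLearner b e, ?_,
      fun t => rfl, kLearner_success hd e ε hε hε1' b T hb2 (hT ▸ Nat.le_ceil _) hμ⟩
    rw [Fintype.card_fun, Fintype.card_fin, Fintype.card_fin, ← pow_mul]
    exact Nat.pow_le_pow_right (by norm_num) hbd
  refine (iInf₂_le T hach).trans ?_
  rw [← ENNReal.ofReal_natCast]
  apply ENNReal.ofReal_le_ofReal
  have h48 : Real.log (48 / ε) = Real.log 48 + Real.log (1 / ε) := by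
    rw [← Real.log_mul (by norm_num) (by positivity)]
    congr 1; ring
  have hlog48 : Real.log 48 ≤ 4 := by
    have h1 : (48 : ℝ) ≤ Real.exp 4 := by
      have h2 := Real.exp_one_gt_d9
      have h3 : Real.exp 4 = Real.exp 1 ^ 4 := by rw [← Real.exp_nat_mul]; norm_num
      rw [h3]
      calc (48 : ℝ) ≤ 2.7 ^ 4 := by norm_num
        _ ≤ Real.exp 1 ^ 4 := by gcongr; linarith
    calc Real.log 48 ≤ Real.log (Real.exp 4) := Real.log_le_log (by norm_num) h1
      _ = 4 := Real.log_exp 4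
  have h1 : (T : ℝ) ≤ 2 * (d : ℝ) * Real.log (48 / ε) + 1 := by
    rw [hT]
    exact (Nat.ceil_lt_add_one (by rw [h48]; have := Real.log_nonneg (by norm_num : (1:ℝ) ≤ 48); positivity)).le
  rw [h48] at h1
  have h2 : 2 * (d : ℝ) * (Real.log 48 + Real.log (1 / ε)) ≤ 2 * d * (5 * Real.log (1 / ε)) := by
    gcongr
    linarith
  have h3 : 1 ≤ d * Real.log (1 / ε) := by nlinarith
  linarith

theorem floor (d M : ℕ) (hd : 1 ≤ d) (ε : ℝ) (hε : 0 < ε)
    (hM : (M : ℝ) + 2 * d < (d - 1) * Real.logb 2 (1 / ε)) : leastHorizon d M ε = ⊤ := by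
  unfold leastHorizon
  rw [iInf₂_eq_top]
  rintro T ⟨Q, _, _, _, L, hcard, hout, hsucc⟩
  exfalso
  have h1 := learner_floor hd L hout T ε hε hsucc
  have hdr : (1 : ℝ) ≤ d := by exact_mod_cast hd
  have hcard' : (Fintype.card Q : ℝ) ≤ 2 ^ M := by exact_mod_cast hcard
  have h2 : (2 : ℝ) / 3 ≤ 2 ^ M * (2 ^ d * (2 * ε) ^ (d - 1)) := h1.trans (by gcongr)
  have h3 := Real.logb_le_logb_of_le (by norm_num : (1 : ℝ) < 2) (by norm_num) h2
  rw [Real.logb_mul (by positivity) (by positivity), Real.logb_mul (by positivity) (by positivity),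
    Real.logb_pow, Real.logb_pow, Real.logb_pow, Real.logb_mul (by norm_num) hε.ne',
    Real.logb_self_eq_one (by norm_num)] at h3
  have h4 : ((d - 1 : ℕ) : ℝ) = d - 1 := by
    rw [Nat.cast_sub hd]; norm_num
  rw [h4] at h3
  have h5 : Real.logb 2 (1 / ε) = - Real.logb 2 ε := by
    rw [one_div, Real.logb_inv]
  have h6 : -1 ≤ Real.logb 2 (2 / 3) := by
    have h7 : Real.logb 2 (1 / 2) = -1 := by
      rw [one_div, Real.logb_inv, Real.logb_self_eq_one (by norm_num)]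
    rw [← h7]
    exact Real.logb_le_logb_of_le (by norm_num) (by norm_num) (by norm_num)
  rw [h5] at hM
  linarith

/-- For `M ≤ A * d ^ 2` the least horizon is at least of order `d * log (1 / ε)`, it is of this
order as soon as `M ≥ d * (log₂ (1 / ε) + 2 * log₂ d + 8)`, and it is infinite for
`M < (d - 1) * log₂ (1 / ε) - 2 * d`. -/
theorem result :
    ∃ C : ℝ, 0 < C ∧ ∀ A : ℝ, 0 < A → ∃ c : ℝ, 0 < c ∧ ∃ d₀ : ℕ, ∃ ε₀ : ℝ, 0 < ε₀ ∧
      ∀ d : ℕ, d₀ ≤ d → ∀ ε : ℝ, 0 < ε → ε ≤ ε₀ → ∀ M : ℕ, (M : ℝ) ≤ A * (d : ℝ) ^ 2 →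
        ENNReal.ofReal (c * (d * Real.log (1 / ε))) ≤ leastHorizon d M ε ∧
        (d * (Real.logb 2 (1 / ε) + 2 * Real.logb 2 d + 8) ≤ (M : ℝ) →
          leastHorizon d M ε ≤ ENNReal.ofReal (C * (d * Real.log (1 / ε)))) ∧
        ((M : ℝ) + 2 * d < (d - 1) * Real.logb 2 (1 / ε) → leastHorizon d M ε = ⊤) := by
  refine ⟨11, by norm_num, ?_⟩
  intro A hA
  obtain ⟨c₁, hc₁, d₁, K₁, hmain⟩ := learner_bound
  have hA1 : (1 : ℝ) ≤ max 1 A := le_max_left _ _
  have hA0 : (0 : ℝ) < max 1 A := by linarith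
  refine ⟨c₁ / max 1 A, by positivity, max d₁ 1,
    min (Real.exp (-(K₁ * max 1 A))) (Real.exp (-1)), by positivity, ?_⟩
  intro d hd ε hε hε₀ M hM
  have hd1 : 1 ≤ d := (le_max_right _ _).trans hd
  refine ⟨?_, upper d M hd1 ε hε (hε₀.trans (min_le_right _ _)), floor d M hd1 ε hε⟩
  refine le_iInf₂ ?_
  rintro T ⟨Q, _, _, _, L, hcard, -, hsucc⟩
  rw [← ENNReal.ofReal_natCast]
  apply ENNReal.ofReal_le_ofReal
  have h1 := hmain d ((le_max_left _ _).trans hd) (max 1 A) hA1 Q M T ε L hcard ?_ hε ?_ hsucc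
  · linarith
  · refine hM.trans ?_
    gcongr
    exact le_max_right _ _
  · rw [one_div, Real.log_inv]
    have h1 := Real.log_le_log hε (hε₀.trans (min_le_left _ _))
    rw [Real.log_exp] at h1
    linarith

end Vale.Agent.Results.P309.HorizonOrder
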