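import Vale.Agent.Lib.P309.Final

/-!
P309, Q1: with `M ≤ c * d ^ 2` bits of memory, learning a noiseless Gaussian linear regression
signal to accuracy `ε` takes at least `c' * d * log (1 / ε)` samples, for every constant `c`.
-/

open MeasureTheory ProbabilityTheory Vale.Agent.P309

/-- First part: the statement asked for in Q1, proved for every constant `c`.
Second part: the same bound with an explicit dependence on the memory, uniformly in `M`. -/
theorem Vale.Agent.Results.P309.LinearHorizon.result :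
    (∀ c : ℝ, 0 < c → ∃ c' : ℝ, 0 < c' ∧ ∃ d₀ : ℕ, ∃ ε₀ : ℝ, 0 < ε₀ ∧
      ∀ d : ℕ, d₀ ≤ d → ∀ ε : ℝ, 0 < ε → ε ≤ ε₀ → ∀ M T : ℕ, (M : ℝ) ≤ c * (d : ℝ) ^ 2 →
        ∀ (Q : Type) [Fintype Q] [MeasurableSpace Q] [MeasurableSingletonClass Q],
          Fintype.card Q ≤ 2 ^ M → ∀ L : Learner d Q,
            ENNReal.ofReal (2 / 3) ≤ L.successProb T ε →
              c' * d * Real.log (1 / ε) ≤ T) ∧
    (∃ c : ℝ, 0 < c ∧ ∃ d₀ : ℕ, ∃ K₀ : ℝ, ∀ d : ℕ, d₀ ≤ d → ∀ M T : ℕ, ∀ ε : ℝ, 0 < ε →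
      K₀ * max 1 ((M : ℝ) / (d : ℝ) ^ 2) ≤ Real.log (1 / ε) →
        ∀ (Q : Type) [Fintype Q] [MeasurableSpace Q] [MeasurableSingletonClass Q],
          Fintype.card Q ≤ 2 ^ M → ∀ L : Learner d Q,
            ENNReal.ofReal (2 / 3) ≤ L.successProb T ε →
              c * (d * Real.log (1 / ε)) / max 1 ((M : ℝ) / (d : ℝ) ^ 2) ≤ T) := by
  obtain ⟨c₁, hc₁, d₁, K₁, hmain⟩ := learner_bound
  constructor
  · intro c hc
    have hA : (1 : ℝ) ≤ max 1 c := le_max_left _ _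
    have hA0 : (0 : ℝ) < max 1 c := by linarith
    refine ⟨c₁ / max 1 c, by positivity, d₁, Real.exp (-(K₁ * max 1 c)), Real.exp_pos _, ?_⟩
    intro d hd ε hε hε₀ M T hM Q _ _ _ hcard L hsucc
    refine hmain d hd (max 1 c) hA Q M T ε L hcard ?_ hε ?_ hsucc
    · refine hM.trans ?_
      gcongr
      exact le_max_right _ _
    · rw [one_div, Real.log_inv]
      have h1 := Real.log_le_log hε hε₀
      rw [Real.log_exp] at h1
      linarith
  · refine ⟨c₁, hc₁, max d₁ 1, K₁, ?_⟩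
    intro d hd M T ε hε hK Q _ _ _ hcard L hsucc
    have hd1 : (1 : ℕ) ≤ d := (le_max_right _ _).trans hd
    have hdpos : (0 : ℝ) < d := by exact_mod_cast hd1
    have h1 := hmain d ((le_max_left _ _).trans hd) (max 1 ((M : ℝ) / (d : ℝ) ^ 2))
      (le_max_left _ _) Q M T ε L hcard ?_ hε hK hsucc
    · calc c₁ * (d * Real.log (1 / ε)) / max 1 ((M : ℝ) / (d : ℝ) ^ 2)
          = c₁ / max 1 ((M : ℝ) / (d : ℝ) ^ 2) * d * Real.log (1 / ε) := by ring
        _ ≤ T := h1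
    · have h2 : (M : ℝ) / (d : ℝ) ^ 2 ≤ max 1 ((M : ℝ) / (d : ℝ) ^ 2) := le_max_right _ _
      rwa [div_le_iff₀ (by positivity)] at h2
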