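import Vale.Agent.Lib.P309.Final

/-!
P309, Q1: a learner with `M ≤ c * d ^ 2` bits of memory which reads fewer than
`c' * d * log (1 / ε)` samples does not succeed at accuracy `ε`.
-/

open MeasureTheory ProbabilityTheory

namespace Vale.Agent.Results.P309.MBitRules

/-- The unit sphere of `d`-dimensional Euclidean space (signals and outputs). -/
abbrev Sph (d : ℕ) : Type := Metric.sphere (0 : EuclideanSpace ℝ (Fin d)) 1

/-- The uniform distribution on the unit sphere: the normalised surface measure. -/
noncomputable def uniform (d : ℕ) : Measure (Sph d) :=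
  ((volume : Measure (EuclideanSpace ℝ (Fin d))).toSphere Set.univ)⁻¹ •
    (volume : Measure (EuclideanSpace ℝ (Fin d))).toSphere

/-- The rules of a learner with `M` bits of persistent memory. Its internal randomness is a random
element `u` of an arbitrary measurable space `R`; every rule may use it, at no cost of memory.
`start u` is the initial state; `step t (u, q, (x, y))` is the new state together with the decision
whether to stop (`true` means stop) at index `t`, if the state is `q` and the current pair is
`(x, y)`; `guess (u, q)` is the output if the final state is `q`. -/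
structure Rules (d M : ℕ) (R : Type) [MeasurableSpace R] where
  start : R → (Fin M → Bool)
  step : ℕ → R × (Fin M → Bool) × (EuclideanSpace ℝ (Fin d) × ℝ) → (Fin M → Bool) × Bool
  guess : R × (Fin M → Bool) → Sph d
  measurable_start : Measurable start
  measurable_step : ∀ t, Measurable (step t)
  measurable_guess : Measurable guess

/-- State of the learner, and whether it has stopped, after at most `t` pairs of the sequence
`p 0, p 1, ...` (the pair of index `t + 1` is `p t`); once stopped, nothing changes any more. -/
def Rules.run {d M : ℕ} {R : Type} [MeasurableSpace R] (A : Rules d M R) (u : R)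
    (p : ℕ → EuclideanSpace ℝ (Fin d) × ℝ) : ℕ → (Fin M → Bool) × Bool
  | 0 => (A.start u, false)
  | t + 1 => if (A.run u p t).2 = true then A.run u p t else A.step (t + 1) (u, (A.run u p t).1, p t)

/-- The output after at most `T` samples, if the internal randomness is `u`, the signal is `s` and
the rows are `x 0, x 1, ...`, with the exact labels `⟪x t, s⟫`. -/
noncomputable def Rules.output {d M : ℕ} {R : Type} [MeasurableSpace R] (A : Rules d M R) (T : ℕ)
    (u : R) (s : Sph d) (x : ℕ → EuclideanSpace ℝ (Fin d)) : Sph d :=
  A.guess (u, (A.run u (fun t => (x t, inner ℝ (x t) (s : EuclideanSpace ℝ (Fin d)))) T).1)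

/-- The probability that the angle between output and signal is at most `ε`, if the internal
randomness has law `ρ`, the signal is uniform on the sphere and the rows are `N(0, I_d)`, all of
them independent. -/
noncomputable def Rules.successProb {d M : ℕ} {R : Type} [MeasurableSpace R] (A : Rules d M R)
    (ρ : Measure R) (T : ℕ) (ε : ℝ) : ENNReal :=
  (ρ.prod ((uniform d).prod
    (Measure.infinitePi fun _ : ℕ => stdGaussian (EuclideanSpace ℝ (Fin d)))))
    {w | Real.arccos (inner ℝ (A.output T w.1 w.2.1 w.2.2 : EuclideanSpace ℝ (Fin d)) w.2.1) ≤ ε}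

section Proof

open Vale.Agent.P309

variable {d M : ℕ} {R : Type} [MeasurableSpace R] (A : Rules d M R)

/-- the pairs -/
noncomputable def prs (s : Sph d) (x : ℕ → EuclideanSpace ℝ (Fin d)) (t : ℕ) :
    EuclideanSpace ℝ (Fin d) × ℝ := (x t, inner ℝ (x t) (s : EuclideanSpace ℝ (Fin d)))

theorem measurable_run (t : ℕ) : Measurable
    (fun w : R × Sph d × (ℕ → EuclideanSpace ℝ (Fin d)) => A.run w.1 (prs w.2.1 w.2.2) t) := by
  induction t with
  | zero => exact ((A.measurable_start.comp measurable_fst).prodMk measurable_const)
  | succ t ih =>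
    have h1 : MeasurableSet {w : R × Sph d × (ℕ → EuclideanSpace ℝ (Fin d)) |
        (A.run w.1 (prs w.2.1 w.2.2) t).2 = true} :=
      (measurable_snd.comp ih) (measurableSet_singleton true)
    refine Measurable.ite h1 ih ?_
    refine (A.measurable_step (t + 1)).comp ?_
    refine measurable_fst.prodMk ((measurable_fst.comp ih).prodMk ?_)
    unfold prs
    have h2 : Measurable fun w : R × Sph d × (ℕ → EuclideanSpace ℝ (Fin d)) => w.2.2 t :=
      (measurable_pi_apply t).comp (measurable_snd.comp measurable_snd)
    have h3 : Measurable fun w : R × Sph d × (ℕ → EuclideanSpace ℝ (Fin d)) =>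
        (w.2.1 : EuclideanSpace ℝ (Fin d)) :=
      measurable_subtype_coe.comp (measurable_fst.comp measurable_snd)
    exact h2.prodMk (h2.inner h3)

theorem run_congr (u : R) {p p' : ℕ → EuclideanSpace ℝ (Fin d) × ℝ} (t : ℕ)
    (h : ∀ i < t, p i = p' i) : A.run u p t = A.run u p' t := by
  induction t with
  | zero => rfl
  | succ t ih =>
    have h1 := ih fun i hi => h i (Nat.lt_succ_of_lt hi)
    unfold Rules.run
    rw [h1, h t (Nat.lt_succ_self t)]

/-- the learner with internal randomness `u` -/
noncomputable def toL (u : R) : Learner d (Fin M → Bool) where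
  init := Measure.dirac (A.start u)
  init_prob := inferInstance
  step t := Kernel.deterministic (fun p => A.step t (u, p.1, p.2))
    ((A.measurable_step t).comp (measurable_const.prodMk (measurable_fst.prodMk measurable_snd)))
  step_markov _ := inferInstance
  out _ := Kernel.deterministic (fun q => A.guess (u, q))
    (A.measurable_guess.comp (measurable_const.prodMk measurable_id))
  out_markov _ := inferInstance

/-- forget the stopping index -/
def fgt (M : ℕ) (z : (Fin M → Bool) × ℕ) : (Fin M → Bool) × Bool := (z.1, decide (z.2 ≠ 0))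

theorem measurable_run' (u : R) (s : Sph d) (t : ℕ) :
    Measurable (fun x : ℕ → EuclideanSpace ℝ (Fin d) => A.run u (prs s x) t) :=
  (measurable_run A t).comp (measurable_const.prodMk (measurable_const.prodMk measurable_id))

theorem measurable_stepf (u : R) (s : Sph d) (t : ℕ) :
    Measurable fun w : ((Fin M → Bool) × Bool) × EuclideanSpace ℝ (Fin d) =>
      if w.1.2 = true then w.1
        else A.step (t + 1) (u, w.1.1, (w.2, inner ℝ w.2 (s : EuclideanSpace ℝ (Fin d)))) := by
  have h1 : MeasurableSet {w : ((Fin M → Bool) × Bool) × EuclideanSpace ℝ (Fin d) |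
      w.1.2 = true} := (measurable_snd.comp measurable_fst) (measurableSet_singleton true)
  refine Measurable.ite h1 measurable_fst ?_
  refine (A.measurable_step (t + 1)).comp ?_
  refine measurable_const.prodMk ((measurable_fst.comp measurable_fst).prodMk ?_)
  exact measurable_snd.prodMk (measurable_snd.inner measurable_const)

/-- the state after `t` pairs and the next row are independent -/
theorem run_indep (u : R) (s : Sph d) (t : ℕ) :
    (Measure.infinitePi fun _ : ℕ => stdGaussian (EuclideanSpace ℝ (Fin d))).map
      (fun x => (A.run u (prs s x) t, x t)) =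
    ((Measure.infinitePi fun _ : ℕ => stdGaussian (EuclideanSpace ℝ (Fin d))).map
      (fun x => A.run u (prs s x) t)).prod (stdGaussian (EuclideanSpace ℝ (Fin d))) := by
  have hind : iIndepFun (fun (i : ℕ) (x : ℕ → EuclideanSpace ℝ (Fin d)) => x i)
      (Measure.infinitePi fun _ : ℕ => stdGaussian (EuclideanSpace ℝ (Fin d))) :=
    iIndepFun_infinitePi (P := fun _ : ℕ => stdGaussian (EuclideanSpace ℝ (Fin d)))
      (X := fun _ x => x) fun _ => measurable_id
  have h1 := hind.indepFun_finset (Finset.range t) {t} (by simp) fun i => measurable_pi_apply i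
  let e : ((i : Finset.range t) → EuclideanSpace ℝ (Fin d)) → ℕ → EuclideanSpace ℝ (Fin d) :=
    fun y i => if h : i ∈ Finset.range t then y ⟨i, h⟩ else 0
  have he : Measurable e := by
    refine measurable_pi_iff.2 fun i => ?_
    by_cases h : i ∈ Finset.range t
    · have : (fun y => e y i) = fun y => y ⟨i, h⟩ := by
        funext y
        simp only [e, dif_pos h]
      rw [this]
      exact measurable_pi_apply _
    · have : (fun y => e y i) = fun _ => 0 := by
        funext y
        simp only [e, dif_neg h]
      rw [this]
      exact measurable_const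
  have hq : ∀ x : ℕ → EuclideanSpace ℝ (Fin d), A.run u (prs s x) t =
      A.run u (prs s (e fun i : Finset.range t => x i)) t := by
    intro x
    refine run_congr A u t fun i hi => ?_
    unfold prs
    simp only [e, dif_pos (Finset.mem_range.2 hi)]
  have h2 : IndepFun (fun x => A.run u (prs s x) t) (fun x : ℕ → EuclideanSpace ℝ (Fin d) => x t)
      (Measure.infinitePi fun _ : ℕ => stdGaussian (EuclideanSpace ℝ (Fin d))) := by
    have hψ : Measurable (fun y : ({t} : Finset ℕ) → EuclideanSpace ℝ (Fin d) =>
        y ⟨t, Finset.mem_singleton_self t⟩) := measurable_pi_apply _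
    have hφ : Measurable (fun y : Finset.range t → EuclideanSpace ℝ (Fin d) =>
        A.run u (prs s (e y)) t) := (measurable_run' A u s t).comp he
    have h3 := h1.comp hφ hψ
    have h4 : (fun x => A.run u (prs s x) t) = (fun y => A.run u (prs s (e y)) t) ∘
        fun (x : ℕ → EuclideanSpace ℝ (Fin d)) (i : Finset.range t) => x i := funext hq
    rw [h4]
    exact h3
  rw [h2.map_prod_eq_prod_map_map (measurable_run' A u s t).aemeasurable
    (measurable_pi_apply t).aemeasurable]
  congr 1
  exact Measure.infinitePi_map_eval (fun _ : ℕ => stdGaussian (EuclideanSpace ℝ (Fin d))) t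

theorem law_eq (u : R) (s : Sph d) (t : ℕ) : ((toL A u).law s t).map (fgt M) =
    (Measure.infinitePi fun _ : ℕ => stdGaussian (EuclideanSpace ℝ (Fin d))).map
      (fun x => A.run u (prs s x) t) := by
  have hg : Measurable (fgt M) := measurable_of_countable _
  induction t with
  | zero =>
    have h1 : (toL A u).law s 0 = Measure.dirac (A.start u, 0) := by
      change (Measure.dirac (A.start u)).map (fun q => (q, 0)) = _
      rw [Measure.map_dirac' (measurable_of_countable _)]
    rw [h1, Measure.map_dirac' hg]
    have h2 : (fun x : ℕ → EuclideanSpace ℝ (Fin d) => A.run u (prs s x) 0) =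
        fun _ => (A.start u, false) := rfl
    rw [h2, Measure.map_const, measure_univ, one_smul]
    rfl
  | succ t ih =>
    have hF := measurable_stepf A u s t
    refine Measure.ext fun B hB => ?_
    -- right side
    have hR : (Measure.infinitePi fun _ : ℕ => stdGaussian (EuclideanSpace ℝ (Fin d))).map
        (fun x => A.run u (prs s x) (t + 1)) B =
        ∫⁻ w, stdGaussian (EuclideanSpace ℝ (Fin d)) {y | (if w.2 = true then w
          else A.step (t + 1) (u, w.1, (y, inner ℝ y (s : EuclideanSpace ℝ (Fin d))))) ∈ B}
          ∂((Measure.infinitePi fun _ : ℕ => stdGaussian (EuclideanSpace ℝ (Fin d))).map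
            (fun x => A.run u (prs s x) t)) := by
      have h1 : (fun x => A.run u (prs s x) (t + 1)) =
          (fun w : ((Fin M → Bool) × Bool) × EuclideanSpace ℝ (Fin d) =>
            if w.1.2 = true then w.1
            else A.step (t + 1) (u, w.1.1, (w.2, inner ℝ w.2 (s : EuclideanSpace ℝ (Fin d))))) ∘
          (fun x => (A.run u (prs s x) t, x t)) := rfl
      rw [h1, ← Measure.map_map hF ((measurable_run' A u s t).prodMk (measurable_pi_apply t)),
        run_indep, Measure.map_apply hF hB, Measure.prod_apply (hF hB)]
      rfl
    rw [hR, ← ih, lintegral_map (measurable_of_countable _) hg, Measure.map_apply hg hB]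
    change ((toL A u).law s t).bind ((toL A u).next s t) (fgt M ⁻¹' B) = _
    rw [Measure.bind_apply (hg hB) (measurable_of_countable _).aemeasurable]
    refine lintegral_congr fun z => ?_
    by_cases hz : z.2 = 0
    · have h1 : (fgt M z).2 = false := by simp [fgt, hz]
      have h2 : (toL A u).next s t z = (stdGaussian (EuclideanSpace ℝ (Fin d))).bind fun x =>
          ((toL A u).step (t + 1) (z.1, x, inner ℝ x (s : EuclideanSpace ℝ (Fin d)))).map fun r =>
            (r.1, if r.2 = true then t + 1 else 0) := by
        unfold Learner.next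
        rw [if_pos hz]
      have h3 : ∀ x, ((toL A u).step (t + 1) (z.1, x, inner ℝ x
          (s : EuclideanSpace ℝ (Fin d)))).map (fun r => (r.1, if r.2 = true then t + 1 else 0)) =
          Measure.dirac ((fun r : (Fin M → Bool) × Bool => (r.1, if r.2 = true then t + 1 else 0))
            (A.step (t + 1) (u, z.1, (x, inner ℝ x (s : EuclideanSpace ℝ (Fin d)))))) := by
        intro x
        change (Measure.dirac (A.step (t + 1) (u, z.1, (x, inner ℝ x
          (s : EuclideanSpace ℝ (Fin d)))))).map _ = _
        rw [Measure.map_dirac' (measurable_of_countable _)]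
      have hst : Measurable fun x : EuclideanSpace ℝ (Fin d) =>
          A.step (t + 1) (u, z.1, (x, inner ℝ x (s : EuclideanSpace ℝ (Fin d)))) :=
        (A.measurable_step (t + 1)).comp (measurable_const.prodMk (measurable_const.prodMk
          (measurable_id.prodMk (measurable_id.inner measurable_const))))
      rw [h2]
      simp only [h3]
      have h4 : Measurable fun x : EuclideanSpace ℝ (Fin d) =>
          (fun r : (Fin M → Bool) × Bool => (r.1, if r.2 = true then t + 1 else 0))
            (A.step (t + 1) (u, z.1, (x, inner ℝ x (s : EuclideanSpace ℝ (Fin d))))) := by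
        have hrr : Measurable fun r : (Fin M → Bool) × Bool =>
            (r.1, if r.2 = true then t + 1 else 0) := measurable_of_countable _
        exact hrr.comp hst
      rw [Measure.bind_dirac_eq_map _ h4, Measure.map_apply h4 (hg hB)]
      congr 1
      ext x
      change fgt M _ ∈ B ↔ (if (fgt M z).2 = true then fgt M z else _) ∈ B
      rw [h1, if_neg (by simp)]
      have h5 : ∀ r : (Fin M → Bool) × Bool,
          fgt M (r.1, if r.2 = true then t + 1 else 0) = r := by
        rintro ⟨q, b⟩
        cases b <;> simp [fgt]
      rw [h5]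
      rfl
    · have h1 : (fgt M z).2 = true := by simp [fgt, hz]
      have h2 : (toL A u).next s t z = Measure.dirac z := by
        unfold Learner.next
        rw [if_neg hz]
      rw [h2, Measure.dirac_apply' _ (hg hB)]
      simp only [h1, if_true]
      by_cases h3 : fgt M z ∈ B
      · rw [Set.indicator_of_mem (show z ∈ fgt M ⁻¹' B from h3)]
        have h4 : {y : EuclideanSpace ℝ (Fin d) | fgt M z ∈ B} = Set.univ :=
          Set.eq_univ_of_forall fun _ => h3
        rw [h4, measure_univ]
        rfl
      · rw [Set.indicator_of_notMem (show z ∉ fgt M ⁻¹' B from h3)]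
        have h4 : {y : EuclideanSpace ℝ (Fin d) | fgt M z ∈ B} = ∅ :=
          Set.eq_empty_of_forall_notMem fun _ => h3
        rw [h4, measure_empty]

theorem output_eq (u : R) (s : Sph d) (T : ℕ) {B : Set (Sph d)} (hB : MeasurableSet B) :
    (toL A u).output T s B =
      (Measure.infinitePi fun _ : ℕ => stdGaussian (EuclideanSpace ℝ (Fin d)))
        {x | A.output T u s x ∈ B} := by
  have hg : Measurable (fgt M) := measurable_of_countable _
  have h1 : (toL A u).output T s B = ∫⁻ z, (Measure.dirac (A.guess (u, z.1))) B
      ∂((toL A u).law s T) := by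
    change (((toL A u).law s T).bind fun z => Measure.dirac (A.guess (u, z.1))) B = _
    rw [Measure.bind_apply hB (measurable_of_countable _).aemeasurable]
  have h2 : ∫⁻ z, (Measure.dirac (A.guess (u, z.1))) B ∂((toL A u).law s T) =
      ∫⁻ w, (Measure.dirac (A.guess (u, w.1))) B ∂(((toL A u).law s T).map (fgt M)) := by
    rw [lintegral_map (measurable_of_countable _) hg]
    rfl
  have hm : MeasurableSet {x | A.output T u s x ∈ B} := by
    refine (A.measurable_guess.comp ?_) hB
    exact measurable_const.prodMk (measurable_fst.comp (measurable_run' A u s T))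
  rw [h1, h2, law_eq, lintegral_map (measurable_of_countable _) (measurable_run' A u s T),
    ← lintegral_indicator_one hm]
  refine lintegral_congr fun x => ?_
  rw [Measure.dirac_apply' _ hB]
  rfl

theorem result : ∀ c : ℝ, 0 < c → ∃ c' : ℝ, 0 < c' ∧ ∃ (d₀ : ℕ) (ε₀ : ℝ), 0 < ε₀ ∧
    ∀ d : ℕ, d₀ ≤ d → ∀ ε : ℝ, 0 < ε → ε ≤ ε₀ → ∀ M T : ℕ, (M : ℝ) ≤ c * (d : ℝ) ^ 2 →
      (T : ℝ) < c' * d * Real.log (1 / ε) →
        ∀ (R : Type) [MeasurableSpace R] (ρ : Measure R) [IsProbabilityMeasure ρ]
          (A : Rules d M R), A.successProb ρ T ε < ENNReal.ofReal (2 / 3) := by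
  intro c hc
  obtain ⟨c₁, hc₁, d₁, K₁, hmain⟩ := learner_bound
  have hA : (1 : ℝ) ≤ max 1 c := le_max_left _ _
  have hA0 : (0 : ℝ) < max 1 c := by linarith
  refine ⟨c₁ / max 1 c, by positivity, max d₁ 1, Real.exp (-(K₁ * max 1 c)), Real.exp_pos _, ?_⟩
  intro d hd ε hε hε₀ M T hM hT R _ ρ _ A
  have hprob : IsProbabilityMeasure (uniform d) := isProb_unifSphere ((le_max_right _ _).trans hd)
  by_contra hcon
  rw [not_lt] at hcon
  have hmeas : MeasurableSet {w : R × Sph d × (ℕ → EuclideanSpace ℝ (Fin d)) |
      Real.arccos (inner ℝ (A.output T w.1 w.2.1 w.2.2 : EuclideanSpace ℝ (Fin d)) w.2.1) ≤ ε} := by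
    have h1 : Measurable fun w : R × Sph d × (ℕ → EuclideanSpace ℝ (Fin d)) =>
        (A.output T w.1 w.2.1 w.2.2 : EuclideanSpace ℝ (Fin d)) :=
      measurable_subtype_coe.comp (A.measurable_guess.comp
        (measurable_fst.prodMk (measurable_fst.comp (measurable_run A T))))
    have h2 : Measurable fun w : R × Sph d × (ℕ → EuclideanSpace ℝ (Fin d)) =>
        (w.2.1 : EuclideanSpace ℝ (Fin d)) :=
      measurable_subtype_coe.comp (measurable_fst.comp measurable_snd)
    exact measurableSet_le (Real.continuous_arccos.measurable.comp (h1.inner h2)) measurable_const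
  have hsplit : A.successProb ρ T ε = ∫⁻ u, (toL A u).successProb T ε ∂ρ := by
    unfold Rules.successProb
    rw [Measure.prod_apply hmeas]
    refine lintegral_congr fun u => ?_
    have hmu : MeasurableSet (Prod.mk u ⁻¹' {w : R × Sph d × (ℕ → EuclideanSpace ℝ (Fin d)) |
      Real.arccos (inner ℝ (A.output T w.1 w.2.1 w.2.2 : EuclideanSpace ℝ (Fin d)) w.2.1) ≤ ε}) :=
      measurable_prodMk_left hmeas
    rw [Measure.prod_apply hmu]
    change _ = ∫⁻ s, (toL A u).output T s
      {w | Real.arccos (inner ℝ (w : EuclideanSpace ℝ (Fin d)) s) ≤ ε} ∂(unifSphere d)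
    refine lintegral_congr fun s => ?_
    rw [output_eq]
    · rfl
    · have h1 : Measurable fun w : Sph d =>
          Real.arccos (inner ℝ (w : EuclideanSpace ℝ (Fin d)) (s : EuclideanSpace ℝ (Fin d))) :=
        Real.continuous_arccos.measurable.comp (measurable_subtype_coe.inner measurable_const)
      exact measurableSet_le h1 measurable_const
  have hfin : ∫⁻ u, (toL A u).successProb T ε ∂ρ ≠ ⊤ := by
    rw [← hsplit]
    exact (lt_of_le_of_lt prob_le_one ENNReal.one_lt_top).ne
  rw [hsplit] at hcon
  obtain ⟨u, hu⟩ := exists_lintegral_le hfin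
  have hcard : Fintype.card (Fin M → Bool) ≤ 2 ^ M := by
    rw [Fintype.card_fun, Fintype.card_bool, Fintype.card_fin]
  have h1 := hmain d ((le_max_left _ _).trans hd) (max 1 c) hA (Fin M → Bool) M T ε (toL A u) hcard ?_ hε ?_
    (hcon.trans hu)
  · linarith
  · refine hM.trans ?_
    gcongr
    exact le_max_right _ _
  · rw [one_div, Real.log_inv]
    have h1 := Real.log_le_log hε hε₀
    rw [Real.log_exp] at h1
    linarith

end Proof

end Vale.Agent.Results.P309.MBitRules
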